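import Crest.Agent.X212.Rad94.Gen
import Crest.Agent.X212.Ucp64.Man
import Crest.Agent.X212.Ell97.Loc
import Crest.Agent.X212.Met55.Mix
import Crest.Agent.X212.Ulc97.Geo

-- ▼ part X212/Gnk31/Abs
section

/-!
# Row 212, RAD-GENK (helper31): generic terms of order zero kill kernels of index at most zero
-/

set_option autoImplicit false
set_option linter.unusedSectionVars false
noncomputable section
open scoped Manifold ContDiff Topology InnerProductSpace
open MeasureTheory Set Function Filter Module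

namespace Crest.Agent.X212.Gnk31
open An An.Pre Sob92 Ell97
open Fred93 (Fr)

section abs
variable {E F Λ : Type*} [NormedAddCommGroup E] [NormedSpace ℝ E] [CompleteSpace E]
  [NormedAddCommGroup F] [NormedSpace ℝ F] [CompleteSpace F]
  [AddCommGroup Λ] [Module ℝ Λ] [TopologicalSpace Λ] [ContinuousAdd Λ] [ContinuousSMul ℝ Λ]

theorem inj_iff0 {T : E →L[ℝ] F} {n : ℤ} (h : Fr T n) : Injective T ↔ finrank ℝ T.ker = 0 := by
  have := h.1.finite_ker
  rw [Submodule.finrank_eq_zero]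
  exact LinearMap.ker_eq_bot.symm

/-- injectivity is open and dense -/
theorem genI {T : E →L[ℝ] F} {n : ℤ} (P : Λ →ₗ[ℝ] E →L[ℝ] F) (hP : Continuous P)
    (hT : ∀ w, Fr (T + P w) n)
    (h : ∀ w k, (T + P w) k = 0 → k ≠ 0 → ∃ v, P v k ∉ range (T + P w)) :
    IsOpen {w | Injective (T + P w)} ∧ Dense {w | Injective (T + P w)} := by
  have c : Continuous fun w => T + P w := by fun_prop
  refine ⟨isOpen_iff_mem_nhds.2 fun w hw => (c.continuousAt.eventually (hT w).eventually').mono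
    fun w' h' => (inj_iff0 h'.1).2 (Nat.le_zero.1 ((inj_iff0 (hT w)).1 hw ▸ h'.2)), fun w => ?_⟩
  induction hn : finrank ℝ (T + P w).ker using Nat.strong_induction_on generalizing w with
  | _ n ih =>
    by_cases hi : Injective (T + P w)
    · exact subset_closure hi
    obtain ⟨k, hk, hk0⟩ : ∃ k, (T + P w) k = 0 ∧ k ≠ 0 := by
      by_contra hc
      push Not at hc
      exact hi ((injective_iff_map_eq_zero _).2 hc)
    obtain ⟨v, hv⟩ := h w k hk hk0
    have hc : Continuous fun t : ℝ => w + t • v := by fun_prop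
    refine isClosed_closure.mem_of_tendsto (b := 𝓝[≠] (0 : ℝ)) (f := fun t => w + t • v)
      ((hc.tendsto' 0 w (by simp)).mono_left nhdsWithin_le_nhds) ?_
    filter_upwards [Rad94.pertG (hT w) (P v) hk hv] with t ht
    refine ih _ ?_ _ rfl
    rw [map_add, map_smul, ← add_assoc, ← hn]
    exact ht.2

/-- a functional that kills the range -/
theorem exists_ann {T : E →L[ℝ] F} {n : ℤ} (h : Fr T n) (hn : n ≤ 0) {k : E} (hk : T k = 0)
    (h0 : k ≠ 0) : ∃ Φ : F →L[ℝ] ℝ, Φ ≠ 0 ∧ ∀ x, Φ (T x) = 0 := by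
  obtain ⟨y, hy⟩ : ∃ y, y ∉ T.range := by
    by_contra hc
    push Not at hc
    have := h.finrank_ker hc
    exact h0 ((injective_iff_map_eq_zero _).1 ((inj_iff0 h).2 (by omega)) k hk)
  have : IsClosed (T.range : Set F) := h.1.isClosed_range
  obtain ⟨φ, hφ⟩ := SeparatingDual.exists_ne_zero (R := ℝ) (x := T.range.mkQ y)
    (by rwa [Ne, Submodule.mkQ_apply, Submodule.Quotient.mk_eq_zero])
  refine ⟨φ ∘L T.range.mkQL, fun e => hφ (congrArg (· y) e), fun x => ?_⟩
  exact (congrArg φ ((Submodule.Quotient.mk_eq_zero _).2 ⟨x, rfl⟩)).trans (map_zero φ)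

end abs

variable {E : Type} [NormedAddCommGroup E] [NormedSpace ℝ E] [FiniteDimensional ℝ E]
  [MeasurableSpace E] [BorelSpace E]
  {HM : Type} [TopologicalSpace HM] {I : ModelWithCorners ℝ E HM} [I.Boundaryless]
  {M : Type} [TopologicalSpace M] [ChartedSpace HM M] [IsManifold I ∞ M]
  [MeasurableSpace M] [T2Space M] [BorelSpace M] [SecondCountableTopology M]
  {ι : Type} [Fintype ι]
  {N : Type} [NormedAddCommGroup N] [NormedSpace ℝ N] [FiniteDimensional ℝ N]
  {V : Type} [NormedAddCommGroup V] [InnerProductSpace ℝ V] [FiniteDimensional ℝ V]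
  {W : Type} [NormedAddCommGroup W] [InnerProductSpace ℝ W] [FiniteDimensional ℝ W]
  {F : An.Fr I M ι} {A : Op M ι V W} {C C' : ℕ → ℝ}

/-- **Baire** in the space of smooth functions with values in `S` -/
theorem frechet (hF : F.Tame C) (S : M → Submodule ℝ N) :
    ∃ (Λ : Type) (_ : AddCommGroup Λ) (_ : Module ℝ Λ) (_ : TopologicalSpace Λ)
      (_ : IsTopologicalAddGroup Λ) (_ : ContinuousSMul ℝ Λ) (H : Λ →ₗ[ℝ] M → N), BaireSpace Λ ∧
      (∀ w, F.Cb (H w) ∧ ∀ x, H w x ∈ S x) ∧ (∀ k, ∀ δ > 0, ∀ᶠ w in 𝓝 0, F.CB k (H w) δ) ∧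
      ∀ m, Sm I m → HasCompactSupport m → (∀ x, m x ∈ S x) → ∃ w, H w = m := by
  have hS := Sup.of_tame hF
  let T := toEuclidean (E := N)
  let U := EuclideanSpace ℝ (Fin (finrank ℝ N))
  let Y := ∀ k : ℕ, F.H (k + 4) (triv M U)
  let e : M → Y →L[ℝ] N := fun x => (T.symm : U →L[ℝ] N) ∘L F.ev 4 _ x ∘L .proj 0
  let Λ : Submodule ℝ Y := (⨅ k, ((F.incl (k + 4) 4 _ ∘L .proj k - .proj 0 : Y →L[ℝ] _)).ker) ⊓
    ⨅ x, (S x).comap (e x : Y →ₗ[ℝ] N)
  have m1 : ∀ y : Y, y ∈ Λ ↔ (∀ k, F.incl (k + 4) 4 _ (y k) = y 0) ∧ ∀ x, e x y ∈ S x := fun y => by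
    simp only [Λ, Submodule.mem_inf, Submodule.mem_iInf, Submodule.mem_comap]
    exact and_congr_left' (forall_congr' fun k => sub_eq_zero)
  have cl : IsClosed (Λ : Set Y) := by
    rw [show (Λ : Set Y) = (⋂ k, {y | F.incl (k + 4) 4 _ (y k) = y 0}) ∩ ⋂ x, e x ⁻¹' S x from
      Set.ext fun y => by simp [m1]]
    exact (isClosed_iInter fun k => isClosed_eq (by fun_prop) (by fun_prop)).inter
      (isClosed_iInter fun x => (S x).closed_of_finiteDimensional.preimage (e x).continuous)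
  have cb : ∀ w : Λ, F.Cb (F.val 4 _ (w.1 0)) := fun w => Cb_val hS le_rfl fun j hj => by
    obtain ⟨k, rfl⟩ : ∃ k, j = k + 4 := ⟨j - 4, by omega⟩
    exact ⟨w.1 k, ((m1 _).1 w.2).1 k⟩
  have := cl.isCompletelyMetrizableSpace
  refine ⟨Λ, inferInstance, inferInstance, inferInstance, inferInstance, inferInstance,
    LinearMap.pi fun x => (e x : Y →ₗ[ℝ] N) ∘ₗ Λ.subtype, inferInstance,
    fun w => ⟨Cb_clm (T.symm : U →L[ℝ] N) (cb w), ((m1 _).1 w.2).2⟩, fun k δ hδ => ?_,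
    fun m h1 h2 h3 => ?_⟩
  · have c : Continuous fun w : Λ => ‖(T.symm : U →L[ℝ] N)‖ * (√|C 0| * ‖w.1 k‖) :=
      continuous_const.mul (continuous_const.mul ((continuous_apply k).comp continuous_subtype_val).norm)
    refine ((c.tendsto' 0 0 (by
      rw [show (0 : Λ).1 k = 0 from rfl]; simp)).eventually (eventually_le_nhds hδ)).mono fun w hw => ?_
    refine CB_mono (CB_clm (T.symm : U →L[ℝ] N) (f := F.val 4 _ (w.1 0)) (cb w).choose_spec.1 ?_) hw
    rw [← ((m1 _).1 w.2).1 k, val_incl hS le_rfl (by omega)]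
    exact CB_val hS k le_rfl _
  · let s : Sec I (triv M U) := ⟨fun y => T (m y), T.contDiff.contMDiff.comp h1,
      h2.mono fun x hx h => hx (by simp [h]), fun _ => rfl⟩
    have k : ∀ x, e x (fun k => F.toH _ _ s) = m x := fun x =>
      (congrArg T.symm (congrFun (val_toH hS le_rfl s) x)).trans (T.symm_apply_apply _)
    exact ⟨⟨fun k => F.toH _ _ s, (m1 _).2 ⟨fun k => incl_toH (by omega) s,
      fun x => (k x).symm ▸ h3 x⟩⟩, funext k⟩

section ell
variable (hF : F.Tame C) (hA : A.Good F C')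
include hF hA

/-- elements of the kernel are smooth -/
theorem sm_ker (hc : A.CliffL F) {x : F.H 1 A.p} (h : A.H F 0 x = 0) : ∃ u, Sm I u ∧
    (∀ y, A.p y (u y) = u y) ∧ Is F.toPre 1 A.p x u ∧ A.app F u = 0 := by
  have := FiniteDimensional.complete ℝ V
  have := FiniteDimensional.complete ℝ W
  have := openPos F.toPre
  obtain ⟨u, ⟨_, h1, -⟩, -, h2, h3⟩ := smooth_of_all hF
    (reg_all hF hA hc (k := 0) fun j _ => ⟨0, (map_zero _).trans h.symm⟩)
  have k := h3.opH (fun a => ⟨_, hA.σ a⟩) ⟨_, hA.B⟩ hA.qσ (Maps.of_left hA.qB) h1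
  exact ⟨u, h1, h2, h3, (Continuous.ae_eq_iff_eq F.μ (sm_app hA h1).continuous continuous_const).1
    (k.symm.trans (show Is F.toPre 0 _ (A.H F 0 x) 0 from h ▸ Is.zero))⟩

/-- square integrable solutions lie in the kernel -/
theorem ker_of (hc : A.Cliff F) {u : M → V} (hu : Sm I u) (hp : ∀ y, A.p y (u y) = u y)
    (hL : MemLp u 2 F.μ) (h : A.app F u = 0) :
    ∃ x : F.H 1 A.p, Is F.toPre 1 A.p x u ∧ A.H F 0 x = 0 := by
  have := FiniteDimensional.complete ℝ V
  obtain ⟨y, hy⟩ := exists_Is (k := 0) (Exh.of_tame hF) hu hL hp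
  obtain ⟨_, hA'⟩ := good_adj hF hA
  obtain ⟨x, h1, h2⟩ := (par hF hA hc).swap.weak_ker (y := y) fun w => by
    change ⟪(A.adj F).H F 0 w, y⟫_ℝ = 0
    induction w using H_ind with
    | hP => exact isClosed_eq (by fun_prop) (by fun_prop)
    | h s =>
      obtain ⟨χ, s2, c2, -, -, e2⟩ := Met55.exists_cut (I := I) s.2.2.1.isCompact isOpen_univ
        (subset_univ _)
      have k := adj_ip hA ⟨fun y => χ y • u y, s2.smul hu, c2.smul_right, fun y => by
        rw [map_smul, hp]⟩ (toT _ s)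
      refine (congrArg (⟪·, y⟫_ℝ) (H_toH hA' 0 s)).trans ?_
      rw [real_inner_comm, ← incl_self y]
      refine (hy.inner_toH _).trans ?_
      refine (integral_congr_ae (.of_forall fun z => ?_)).trans (k.symm.trans
        (integral_eq_zero_of_ae (.of_forall fun z => ?_)))
      · by_cases hz : z ∈ tsupport s.1
        · simp [(e2 z hz).self_of_nhds, toT, tst]
        · have : (A.adj F).app F s.1 z = 0 :=
            image_eq_zero_of_notMem_tsupport fun k => hz (tsupport_op _ _ _ k)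
          simp [toT, tst, this]
      · by_cases hz : z ∈ tsupport s.1
        · simp [app_smul s2 hu, h, sy,
            fun a => show F.D a χ z = 0 from (dv_congr (e2 z hz)).trans (congrFun (dv_const 1) z)]
        · simp [toT, tst, image_eq_zero_of_notMem_tsupport hz]
  exact ⟨x, Is.of_incl zero_le_one (by rw [show F.incl 1 0 A.p x = y from h1]; exact hy), h2⟩

omit hF in
theorem ucp [ConnectedSpace M] (hc : A.CliffL F) {u : M → V} (hu : Sm I u)
    (hp : ∀ y, A.p y (u y) = u y) (h : A.app F u = 0) {O : Set M} (hO : IsOpen O) (hn : O.Nonempty)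
    (h0 : ∀ x ∈ O, u x = 0) : u = 0 :=
  let ⟨y, hy⟩ := hn
  funext fun x => Ucp64.ucp_op F A hA hc isOpen_univ isPreconnected_univ hu.contMDiffOn
    (fun x _ => hp x) (fun _ _ => ⟨0, .of_forall fun z => by simp [h]⟩) (mem_univ y)
    ((hO.eventually_mem hy).mono h0) x trivial

/-- a functional that kills the range and the sections over an open set is zero -/
theorem cok_zero [ConnectedSpace M] (hc : A.Cliff F) {v : F.H 0 A.q}
    (h : ∀ x, ⟪A.H F 0 x, v⟫_ℝ = 0) {O : Set M} (hO : IsOpen O) (hn : O.Nonempty)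
    (h0 : ∀ s : Sec I A.q, tsupport s.1 ⊆ O → ⟪v, F.toH 0 _ s⟫_ℝ = 0) : v = 0 := by
  have := FiniteDimensional.complete ℝ W
  have := openPos F.toPre
  obtain ⟨_, hA'⟩ := good_adj hF hA
  obtain ⟨x, h1, h2⟩ := (par hF hA hc).weak_ker h
  obtain ⟨u, s1, s2, s3, s4⟩ := sm_ker hF hA' hc.2 h2
  have i : Is F.toPre 0 A.q v u := (show F.incl 1 0 A.q x = v from h1) ▸ s3.incl zero_le_one
  refine i.unique (ucp hA' hc.2 s1 s2 s4 hO hn (fun y hy => by_contra fun n => ?_) ▸ Is.zero)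
  obtain ⟨χ, c1, c2, c3, c4, c5⟩ := Met55.exists_bump (I := I) (hO.mem_nhds hy)
  have k := h0 ⟨fun y => χ y • u y, c1.smul s1, c2.smul_right, fun y => by
    rw [map_smul]; exact congrArg _ (s2 y)⟩ ((tsupport_smul_subset_left χ u).trans c3)
  rw [← incl_self v, i.inner_toH] at k
  simp only [ip, real_inner_smul_right, real_inner_self_eq_norm_sq] at k
  exact ((c1.continuous.mul (s1.continuous.norm.pow 2)).integral_pos_of_hasCompactSupport_nonneg_nonzero
    (μ := F.μ) c2.mul_right (fun z => mul_nonneg (c4 z).1 (sq_nonneg _)) (x := y)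
    (by simpa [c5.self_of_nhds] using n)).ne' k

end ell

end Crest.Agent.X212.Gnk31
end
end

-- ▼ part X212/Gnk31/Op
section

/-!
# Row 212, RAD-GENK (helper31): one operator
-/

set_option autoImplicit false
set_option linter.unusedSectionVars false
noncomputable section
open scoped Manifold ContDiff Topology InnerProductSpace
open MeasureTheory Set Function Filter Module

namespace Crest.Agent.X212.Gnk31
open An An.Pre Sob92 Ell97
open Fred93 (Fr)

variable {E : Type} [NormedAddCommGroup E] [NormedSpace ℝ E] [FiniteDimensional ℝ E]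
  [MeasurableSpace E] [BorelSpace E]
  {HM : Type} [TopologicalSpace HM] {I : ModelWithCorners ℝ E HM} [I.Boundaryless]
  {M : Type} [TopologicalSpace M] [ChartedSpace HM M] [IsManifold I ∞ M]
  [MeasurableSpace M] [T2Space M] [BorelSpace M] [SecondCountableTopology M]
  {ι : Type} [Fintype ι]
  {Z : Type} [NormedAddCommGroup Z] [NormedSpace ℝ Z] [FiniteDimensional ℝ Z]
  {V : Type} [NormedAddCommGroup V] [InnerProductSpace ℝ V] [FiniteDimensional ℝ V]
  {W : Type} [NormedAddCommGroup W] [InnerProductSpace ℝ W] [FiniteDimensional ℝ W]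
  {F : An.Fr I M ι} {A : Op M ι V W} {C C' : ℕ → ℝ} {m : M → V →L[ℝ] W}

/-- the operator with one more term of order zero -/
abbrev adB (A : Op M ι V W) (m : M → V →L[ℝ] W) : Op M ι V W :=
  ⟨A.p, A.q, A.σ, fun x => A.B x + m x⟩

theorem adB_app (u : M → V) (x : M) : (adB A m).app F u x = A.app F u x + m x (u x) := by
  simp [Op.app, Pre.op, add_assoc]

theorem good_adB (hA : A.Good F C') (hm : F.Cb m) (hq : ∀ x v, A.q x (m x v) = m x v) :
    ∃ C'', (adB A m).Good F C'' :=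
  let ⟨D, h⟩ := Cb_add ⟨_, hA.B⟩ hm
  let g := Good_mono hA fun k => le_max_left (C' k) (D k)
  ⟨_, g.p, g.q, g.σ, CBs_mono h fun _ => le_max_right _ _, g.σp, g.qσ,
    fun x v => by simp [hA.qB, hq], g.Pσ⟩

theorem adB_H (hA : A.Good F C') (hm : F.Cb m) (hq : ∀ x v, A.q x (m x v) = m x v) :
    (adB A m).H F 0 = A.H F 0 + F.mulH 0 A.p A.q m ∘L F.incl 1 0 A.p :=
  RepT_eq (rep_OpH (good_adB hA hm hq).choose_spec 0).1 (RepT_add (rep_OpH hA 0).1
    (RepT_comp (rep_mulH hm (Maps.of_left hq)) (rep_incl zero_le_one))) fun _ => funext (adB_app _)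

/-- conditions that are bounded on a compact set extend to `H 1` -/
theorem row_ext {K : Set M} (hK : IsCompact K) {ℓ : (M → V) → Z} {c : ℝ}
    (ha : ∀ u v, Sm I u → Sm I v → ℓ (u + v) = ℓ u + ℓ v)
    (hs : ∀ (r : ℝ) u, Sm I u → ℓ (r • u) = r • ℓ u)
    (hb : ∀ u, Sm I u → ‖ℓ u‖ ^ 2 ≤ c * ∫ x in K, ‖u x‖ ^ 2 ∂F.μ) (p : M → V →L[ℝ] V) :
    ∃ L : F.H 1 p →L[ℝ] Z, ∀ h u, Sm I u → (∀ y, p y (u y) = u y) → Is F.toPre 1 p h u →
      L h = ℓ u := by
  have := FiniteDimensional.complete ℝ V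
  have := FiniteDimensional.complete ℝ Z
  obtain ⟨χ, s1, c1, -, -, e1⟩ := Met55.exists_cut (I := I) hK isOpen_univ (subset_univ _)
  obtain ⟨L, hL, -⟩ := exists_ext (F := F.toPre) (k := 1) (p := p) ⟨⟨fun u => ℓ u.1,
      fun u v => ha _ _ u.2.1 v.2.1⟩, fun r u => hs r _ u.2.1⟩ (Real.sqrt_nonneg |c|) fun u => by
    refine le_trans ?_ (mul_le_mul_of_nonneg_left (nrm_mono zero_le_one u.1) (Real.sqrt_nonneg _))
    rw [nrm, ← Real.sqrt_mul (abs_nonneg c)]
    refine Real.le_sqrt_of_sq_le ((hb _ u.2.1).trans (mul_le_mul (le_abs_self c) ?_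
      (integral_nonneg fun _ => sq_nonneg _) (abs_nonneg c)))
    simp only [ip, ← real_inner_self_eq_norm_sq]
    exact setIntegral_le_integral (F.integrable_inner u.2.1.continuous u.2.2.1 u.2.1.continuous)
      (.of_forall fun _ => real_inner_self_nonneg)
  have k : ∀ u, Sm I u → ℓ (fun x => χ x • u x) = ℓ u := fun u hu => by
    have h1 := hb _ (hu.sub (s1.smul hu))
    rw [setIntegral_eq_zero_of_forall_eq_zero fun x hx => by simp [(e1 x hx).self_of_nhds],
      mul_zero] at h1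
    have h2 := ha _ _ (s1.smul hu) (hu.sub (s1.smul hu))
    rw [norm_eq_zero.1 (pow_eq_zero_iff two_ne_zero |>.1 (h1.antisymm (sq_nonneg _))), add_zero] at h2
    exact h2.symm.trans (congrArg ℓ (funext fun x => by simp))
  have cχ : F.Cb χ := Cb_of_hcs s1 c1
  have e : L = L ∘L smulH F.toPre 1 p χ := clm_ext fun u =>
    (hL u).trans ((k _ u.2.1).symm.trans ((hL ⟨_, RepT_mem (rep_smulH (k := 1) cχ) u⟩).symm.trans
      (congrArg L (RepT_toH (rep_smulH cχ) u).symm)))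
  refine ⟨L, fun h u hu hp hh => ?_⟩
  let v : Sec I p := ⟨fun x => χ x • u x, s1.smul hu, c1.smul_right, fun y => by rw [map_smul, hp]⟩
  rw [e]
  exact (congrArg L ((hh.smulH cχ).unique (Is.toH v))).trans ((hL v).trans (k u hu))

/-- **The kernel is trivial for an open dense set of terms.** -/
theorem dense_op [ConnectedSpace M] (hF : F.Tame C) (hA : A.Good F C') (hc : A.Cliff F)
    (L : F.H 1 A.p →L[ℝ] Z) {n : ℤ} (hT : Fr (A.H F 0) n) (hn : n ≤ finrank ℝ Z)
    {Λ : Type} [AddCommGroup Λ] [Module ℝ Λ] [TopologicalSpace Λ] [IsTopologicalAddGroup Λ]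
    [ContinuousSMul ℝ Λ] (H : Λ →ₗ[ℝ] M → V →L[ℝ] W)
    (h1 : ∀ w, F.Cb (H w) ∧ HasCompactSupport (H w) ∧ ∀ x v, A.q x (H w x v) = H w x v)
    (h2 : ∀ δ > 0, ∀ᶠ w in 𝓝 0, F.CB 0 (H w) δ) {U : Set M} (hU : IsOpen U) (hne : U.Nonempty)
    (rich : ∀ u, Sm I u → (∀ y, A.p y (u y) = u y) → ∀ s : Sec I A.q,
      tsupport s.1 ⊆ U ∩ {x | u x ≠ 0} → ∃ w, ∀ x, H w x (u x) = s.1 x)
    (row : ∀ Ω, IsOpen Ω → Dense Ω → ∀ ζ : Z →L[ℝ] ℝ,
      (∀ u : Sec I A.p, tsupport u.1 ⊆ U ∩ Ω → ζ (L (F.toH 1 _ u)) = 0) → ζ = 0) :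
    ∃ G : Set Λ, IsOpen G ∧ Dense G ∧
      ∀ w ∈ G, ∀ x, (adB A (H w)).H F 0 x = 0 → L x = 0 → x = 0 := by
  have := FiniteDimensional.complete ℝ V
  have := FiniteDimensional.complete ℝ W
  have := FiniteDimensional.complete ℝ Z
  have mp := fun w => Maps.of_left (p := A.p) (h1 w).2.2
  let P₀ : Λ →ₗ[ℝ] F.H 0 A.p →L[ℝ] F.H 0 A.q := ⟨⟨fun w => F.mulH 0 _ _ (H w), fun w w' => by
    rw [map_add, mulH_add (h1 w).1 (mp w) (h1 w').1 (mp w')]⟩, fun r w =>
      (congrArg (F.mulH 0 _ _) (map_smul H r w)).trans (mulH_smul r (h1 w).1 (mp w))⟩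
  have c0 : Continuous P₀ := continuous_of_continuousAt_zero P₀ (by
    rw [ContinuousAt, map_zero, NormedAddGroup.tendsto_nhds_zero]
    intro ε hε
    have k := cK_nonneg (ι := ι) 0
    refine (h2 (ε / (cK ι 0 + 1)) (by positivity)).mono fun w hw =>
      (norm_mulH_le (h1 w).1.choose_spec.1 hw (mp w)).trans_lt ?_
    rw [abs_of_pos (by positivity), ← mul_div_assoc, div_lt_iff₀ (by positivity)]
    linarith)
  let P : Λ →ₗ[ℝ] F.H 1 A.p →L[ℝ] F.H 0 A.q × Z := ⟨⟨fun w => .inl ℝ _ _ ∘L P₀ w ∘L F.incl 1 0 _,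
    fun w w' => by ext x <;> simp⟩, fun r w => by ext x <;> simp⟩
  have e : ∀ w, (A.H F 0).prod L + P w = ((adB A (H w)).H F 0).prod L := fun w => by
    rw [adB_H hA (h1 w).1 (h1 w).2.2]
    ext x <;> simp [P, P₀]
  have f : ∀ w, Fr ((A.H F 0).prod L + P w) (n - finrank ℝ Z) := fun w => by
    rw [e, adB_H hA (h1 w).1 (h1 w).2.2]
    exact (hT.add_compact (Cht98.rellich_mul (h1 w).1.choose_spec.1 (h1 w).2.1 (mp w)
      zero_lt_one)).prod L
  obtain ⟨o, d⟩ := genI P (continuous_const.clm_comp (c0.clm_comp continuous_const)) f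
    fun w k hk k0 => by
      obtain ⟨Φ, Φ0, hΦ⟩ := exists_ann (f w) (by omega) hk k0
      by_contra hc'
      push Not at hc'
      rw [e] at hk hΦ hc'
      obtain ⟨_, g⟩ := good_adB hA (h1 w).1 (h1 w).2.2
      obtain ⟨u, s1, s2, s3, s4⟩ := sm_ker hF g hc.1 (congrArg Prod.fst hk)
      have hΩ : IsOpen {x | u x ≠ 0} := isOpen_ne_fun s1.continuous continuous_const
      have hd : Dense {x | u x ≠ 0} := dense_iff_inter_open.2 fun O hO hn => by_contra fun n =>
        k0 (s3.unique (ucp g hc.1 s1 s2 s4 hO hn (fun x hx => by_contra fun j => n ⟨x, hx, j⟩) ▸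
          Is.zero))
      have z : ∀ s : Sec I A.q, tsupport s.1 ⊆ U ∩ {x | u x ≠ 0} → Φ (F.toH 0 _ s, 0) = 0 :=
        fun s hs => by
          obtain ⟨v, hv⟩ := rich u s1 s2 s hs
          obtain ⟨x, hx⟩ := hc' v
          rw [← hΦ x, hx, ← ((s3.incl zero_le_one).mulH (h1 v).1 (mp v)).unique
            ((Is.toH s).congr (.of_forall fun x => (hv x).symm))]
          rfl
      have sp : ∀ y b, Φ (y, b) = Φ (y, 0) + Φ (0, b) := fun y b => by rw [← map_add]; simp
      have ζ0 := row _ hΩ hd (Φ ∘L .inr ℝ _ _) fun v hv => by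
        have j := hΦ (F.toH 1 _ v)
        rw [ContinuousLinearMap.prod_apply, sp, show (adB A (H w)).H F 0 _ = _ from H_toH g 0 v,
          z _ ((tsupport_op _ _ _).trans hv), zero_add] at j
        exact j
      have ζ1 : ∀ b, Φ (0, b) = 0 := fun b => congrArg (· b) ζ0
      have v0 := cok_zero hF g hc (v := (InnerProductSpace.toDual ℝ _).symm (Φ ∘L .inl ℝ _ _))
        (fun x => by
          have j := hΦ x
          rw [ContinuousLinearMap.prod_apply, sp, ζ1, add_zero] at j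
          rw [real_inner_comm, InnerProductSpace.toDual_symm_apply]
          exact j) (hU.inter hΩ) (hd.inter_open_nonempty U hU hne) fun s hs => by
          rw [InnerProductSpace.toDual_symm_apply]
          exact z s hs
      refine Φ0 (ContinuousLinearMap.ext fun b => ?_)
      rw [show Φ b = _ from sp b.1 b.2, ζ1, add_zero]
      exact congrArg (· b.1) ((map_eq_zero_iff _ (LinearIsometryEquiv.injective _)).1 v0)
  exact ⟨_, o, d, fun w hw x a b => (injective_iff_map_eq_zero _).1 hw x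
    (by rw [e]; exact Prod.ext a b)⟩

end Crest.Agent.X212.Gnk31
end
end

-- ▼ part X212/Gnk31/Lop

/-!
# Row 212, RAD-GENK (helper31): weights, operators with cylindrical ends
-/

set_option autoImplicit false
set_option linter.unusedSectionVars false
noncomputable section
open scoped Manifold ContDiff Topology InnerProductSpace
open MeasureTheory Set Function Filter Module Real

namespace Crest.Agent.X212.Gnk31
open An An.Pre Sob92 Ell97 Rad94 Ulc97
open M (Mf pm)

/-- the primitive of the cut-off -/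
def pr (τ : ℝ) : ℝ := ∫ t in (0 : ℝ)..τ, χ t

theorem der_pr (τ : ℝ) : HasDerivAt pr (χ τ) τ :=
  (smoothTransition.continuous.integral_hasStrictDerivAt 0 τ).hasDerivAt

theorem sm_pr : ContDiff ℝ ∞ pr := contDiff_infty_iff_deriv.2 ⟨fun τ => (der_pr τ).differentiableAt,
  (funext fun τ => (der_pr τ).deriv : deriv pr = χ) ▸ smoothTransition.contDiff⟩

theorem pr_zero {τ : ℝ} (h : τ ≤ 0) : pr τ = 0 := by
  rw [pr, intervalIntegral.integral_congr (g := fun _ => 0) fun t ht =>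
    smoothTransition.zero_of_nonpos ((uIcc_of_ge h ▸ ht).2)]
  simp

theorem pr_bd {τ : ℝ} (h : 0 ≤ τ) : |τ - pr τ| ≤ 1 := by
  have i := fun a b => smoothTransition.continuous.intervalIntegrable (μ := volume) a b
  have k : ∀ b ∈ Icc (0 : ℝ) 1, |b - pr b| ≤ 1 := fun b hb => by
    have := intervalIntegral.norm_integral_le_of_norm_le_const (a := 0) (b := b) (C := 1)
      (f := fun t => 1 - χ t) fun t _ => by
        rw [norm_eq_abs, abs_le]
        constructor <;> linarith [smoothTransition.nonneg t, smoothTransition.le_one t]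
    rw [intervalIntegral.integral_sub (by simp) (i _ _)] at this
    simp only [intervalIntegral.integral_const, sub_zero, smul_eq_mul, mul_one, one_mul] at this
    exact this.trans ((abs_of_nonneg hb.1).trans_le hb.2)
  rcases le_total τ 1 with h1 | h1
  · exact k τ ⟨h, h1⟩
  · rw [pr, ← intervalIntegral.integral_add_adjacent_intervals (i 0 1) (i 1 τ),
      intervalIntegral.integral_congr (a := 1) (g := fun _ => 1) fun t ht =>
        smoothTransition.one_of_one_le ((uIcc_of_le h1 ▸ ht).1)]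
    convert k 1 ⟨zero_le_one, le_rfl⟩ using 2
    simp [pr]
    ring

variable {κ lam A : Type} [Fintype κ] [Fintype lam] [Fintype A] {X : Mf 4}
  {V W Z : Type}
  [NormedAddCommGroup V] [InnerProductSpace ℝ V] [FiniteDimensional ℝ V]
  [NormedAddCommGroup W] [InnerProductSpace ℝ W] [FiniteDimensional ℝ W]
  [NormedAddCommGroup Z] [NormedSpace ℝ Z] [FiniteDimensional ℝ Z]
  {g : Gm X κ lam A} {L : Lop g V W} {l ϖ : A → ℝ} {R : X.M → V →L[ℝ] W} {ℓ : (X.M → V) → Z}
  {c : ℝ} {u : X.M → V}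

theorem rd_χ (l : A → ℝ) : Rd fun s τ => χ τ * l s := fun _ =>
  ⟨smoothTransition.contDiff.mul contDiff_const, fun _ h =>
    mul_eq_zero_of_left (smoothTransition.zero_of_nonpos h) _⟩

theorem rd_pr (l : A → ℝ) : Rd fun s τ => pr τ * l s := fun _ =>
  ⟨sm_pr.mul contDiff_const, fun _ h => mul_eq_zero_of_left (pr_zero h) _⟩

theorem sh_eq (L : Lop g V W) (l : A → ℝ) : L.sh l =
    adB L.A fun x => -g.rd (fun s τ => χ τ * l s) x • L.A.σ none x := by
  simp [Lop.sh, Lop.ms, adB, sub_eq_add_neg]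

theorem good_sh (hL : L.OK) (l : A → ℝ) : ∃ C, (L.sh l).Good g.F C :=
  let ⟨_, h⟩ := hL.good
  let ⟨_, b⟩ := Nd18.bd_st
  sh_eq L l ▸ good_adB h (Cb_smul (Cb_neg (Cb_rd (rd_χ l) fun s => ⟨_, b.mul (.const (l s))⟩))
    ⟨_, h.σ none⟩) fun x v => by simp [h.qσ]

theorem sh_app (L : Lop g V W) (l : A → ℝ) (u : X.M → V) (x : X.M) : (L.sh l).app g.F u x =
    L.A.app g.F u x - g.rd (fun s τ => χ τ * l s) x • L.A.σ none x (u x) := by
  rw [sh_eq, adB_app]
  simp [sub_eq_add_neg]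

variable (g) in
/-- the weight -/
def wf (ϖ : A → ℝ) (x : X.M) : ℝ := exp (g.rd (fun s τ => pr τ * -ϖ s) x)

theorem sm_wf (ϖ : A → ℝ) : Sm X.I (wf g ϖ) := contDiff_exp.contMDiff.comp (sm_rd (rd_pr _))

theorem D_wf (ϖ : A → ℝ) (a : Option κ) (x : X.M) : g.F.D a (wf g ϖ) x =
    wf g ϖ x * g.F.D a (g.rd fun s τ => pr τ * -ϖ s) x :=
  (dv_comp ((sm_rd (rd_pr _)).mdifferentiableAt (by simp)) (hasDerivAt_exp _).hasFDerivAt).trans
    (by simp [wf, D_def, mul_comm])

/-- conjugation by the weight -/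
theorem conj_app (hu : Sm X.I u) (x : X.M) :
    (L.sh (Lop.wt g l ϖ)).app g.F (fun y => wf g ϖ y • u y) x = wf g ϖ x • (L.sh l).app g.F u x := by
  have e : g.rd (fun s t => g.sg s * deriv (fun τ => pr τ * -ϖ s) t) x =
      g.rd (fun s τ => χ τ * Lop.wt g l ϖ s) x - g.rd (fun s τ => χ τ * l s) x := by
    simp only [Gm.rd, ← Finset.sum_sub_distrib, ((der_pr _).mul_const _).deriv, Lop.wt]
    exact Finset.sum_congr rfl fun s _ => by ring
  rw [sh_app, app_smul (sm_wf ϖ) hu, sh_app]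
  simp only [sy, D_wf, Fintype.sum_option, D_rd_none (rd_pr _), D_rd_some (rd_pr _), e,
    Pi.zero_apply, mul_zero, zero_smul, Finset.sum_const_zero, add_zero,
    smul_apply, map_smul]
  module

theorem memLp_wf (hg : g.OK) (hu : Continuous u) (h : g.Fi ϖ u) :
    MemLp (fun y => wf g ϖ y • u y) 2 g.F.μ := by
  have c : Continuous fun y => wf g ϖ y • u y := (sm_wf ϖ).continuous.smul hu
  refine (memLp_two_iff_integrable_sq_norm c.aestronglyMeasurable).2 ((integrable_iff (T := 0)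
    (f := fun x => ‖wf g ϖ x • u x‖ ^ 2) hg (by norm_num) (c.norm.pow 2)).2 fun s => ?_)
  have := sm_pr.continuous
  refine IntegrableOn.congr_fun ((h s).bdd_mul (c := exp (2 * |ϖ s|))
    (f := fun τ => exp (2 * (ϖ s * (τ - pr τ)))) (by fun_prop)
    ((ae_restrict_mem measurableSet_Ioi).mono fun τ hτ => ?_)) (fun τ hτ => ?_) measurableSet_Ioi
  · rw [norm_eq_abs, abs_exp, exp_le_exp]
    have := (le_abs_self _).trans ((abs_mul (ϖ s) _).trans_le
      (mul_le_of_le_one_right (abs_nonneg _) (pr_bd (le_of_lt hτ))))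
    linarith
  · have k : -1 < τ := neg_one_lt_zero.trans hτ
    simp only [sl, Gm.n2, wf, rd_pt hg (rd_pr _) k, norm_smul, mul_pow, norm_mul, norm_pow,
      abs_norm, integral_const_mul, norm_eq_abs, abs_exp, ← exp_nat_mul]
    rw [mul_comm (∫ _, _ ∂_), ← mul_assoc, ← exp_add]
    congr 2
    push_cast
    ring

theorem row_congr (h : g.Row ℓ c) {v : X.M → V} (hu : Sm X.I u) (hv : Sm X.I v)
    (e : ∀ x ∈ g.cor 0, u x = v x) : ℓ u = ℓ v := by
  have h1 := h.bd _ (hu.sub hv)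
  rw [Gm.q0, setIntegral_eq_zero_of_forall_eq_zero fun x hx => by simp [e x hx], mul_zero] at h1
  have h2 := h.add _ _ hv (hu.sub hv)
  rw [norm_eq_zero.1 (pow_eq_zero_iff two_ne_zero |>.1 (h1.antisymm (sq_nonneg _))), add_zero] at h2
  exact (congrArg ℓ (funext fun x => by simp)).trans h2

/-- **Generic terms of order zero kill countably many weighted kernels.** -/
theorem gen_lop (hL : L.OK) (hF : L.Fre) (hℓ : g.Row ℓ c) (S : X.M → Submodule ℝ (V →L[ℝ] W))
    {K : Set X.M} (hK : IsCompact K) (h0 : ∀ x ∉ K, ∀ m ∈ S x, m = 0)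
    (hq : ∀ x, ∀ m ∈ S x, ∀ v, L.A.q x (m v) = m v) {U : Set X.M} (hU : IsOpen U) (hne : U.Nonempty)
    (rich : ∀ u, Sc L.A.p u → ∀ s : Sec X.I L.A.q, tsupport s.1 ⊆ U ∩ {x | u x ≠ 0} →
      ∃ m, Sm X.I m ∧ (∀ x, m x ∈ S x) ∧ ∀ x, m x (u x) = s.1 x)
    (row : ∀ Ω, IsOpen Ω → Dense Ω → ∀ ζ : Z →L[ℝ] ℝ,
      (∀ u : Sec X.I L.A.p, tsupport u.1 ⊆ U ∩ Ω → ζ (ℓ u.1) = 0) → ζ = 0)
    {𝒮 : Set ((A → ℝ) × (A → ℝ))} (hc : 𝒮.Countable)
    (h𝒮 : ∀ p ∈ 𝒮, L.Off (Lop.wt g p.1 p.2) ∧ L.ix (Lop.wt g p.1 p.2) ≤ finrank ℝ Z) (k : ℕ) {δ : ℝ}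
    (hδ : 0 < δ) : ∃ m, Sm X.I m ∧ (∀ x, m x ∈ S x) ∧ g.F.CB k m δ ∧
      ∀ p ∈ 𝒮, ∀ u, L.Kr p.1 p.2 m ℓ u → u = 0 := by
  obtain ⟨C, hT⟩ := hL.gm.tame
  have := hL.gm.con
  have := FiniteDimensional.complete ℝ V
  have := openPos g.F.toPre
  obtain ⟨Λ, _, _, _, _, _, H, _, h1, h2, h3⟩ := frechet hT S
  obtain ⟨Lr, hLr⟩ := row_ext (F := g.F) (hL.gm.cpt 0) hℓ.add hℓ.smul hℓ.bd L.A.p
  have cs : ∀ m : X.M → V →L[ℝ] W, (∀ x, m x ∈ S x) → HasCompactSupport m := fun m h =>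
    .intro hK fun x hx => h0 x hx _ (h x)
  choose G o d z using fun p : 𝒮 => dense_op (A := L.sh (Lop.wt g p.1.1 p.1.2)) hT
    (good_sh hL _).choose_spec hL.cl Lr (.of (hF.fr _ (h𝒮 p p.2).1)) (h𝒮 p p.2).2 H
    (fun w => ⟨(h1 w).1, cs _ (h1 w).2, fun x => hq x _ ((h1 w).2 x)⟩) (h2 0) hU hne
    (fun u a b s hs => by
      obtain ⟨m, m1, m2, m3⟩ := rich u ⟨a, b⟩ s hs
      obtain ⟨w, rfl⟩ := h3 m m1 (cs m m2) m2
      exact ⟨w, m3⟩)
    fun Ω a b ζ h => row Ω a b ζ fun u hu => hLr _ _ u.2.1 u.2.2.2 (Is.toH u) ▸ h u hu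
  have := hc.to_subtype
  obtain ⟨w, w1, w2⟩ := (dense_iInter_of_isOpen o d).inter_nhds_nonempty (h2 k δ hδ)
  refine ⟨H w, (h1 w).1.choose_spec.1, (h1 w).2, w2, fun p hp u hu => ?_⟩
  have s1 := (sm_wf (g := g) p.2).smul hu.sc.1
  have s2 : ∀ y, L.A.p y (wf g p.2 y • u y) = wf g p.2 y • u y := fun y => by rw [map_smul, hu.sc.2]
  obtain ⟨x, x1, x2⟩ := ker_of hT (good_adB (good_sh hL (Lop.wt g p.1 p.2)).choose_spec (h1 w).1
    fun x => hq x _ ((h1 w).2 x)).choose_spec hL.cl s1 s2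
    (memLp_wf hL.gm hu.sc.1.continuous hu.fi) (funext fun y => by
      rw [adB_app]
      refine (congrArg (· + _) (conj_app hu.sc.1 y)).trans ?_
      rw [Pi.smul_apply', map_smul, ← smul_add, hu.eq, smul_zero, Pi.zero_apply])
  obtain rfl := z ⟨p, hp⟩ w (mem_iInter.1 w1 _) x x2 ((hLr x _ s1 s2 x1).trans
    ((row_congr hℓ s1 hu.sc.1 fun y hy => by
      rw [Pi.smul_apply', wf, rd_cor (rd_pr _) hy, exp_zero, one_smul]).trans hu.row))
  have e := (Continuous.ae_eq_iff_eq g.F.μ s1.continuous continuous_const).1 (x1.symm.trans Is.zero)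
  exact funext fun y => (smul_eq_zero.1 (congrFun e y)).resolve_left (exp_pos _).ne'

end Crest.Agent.X212.Gnk31
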